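import Vale.Agent.P112.H646.GainDefs
import Vale.Agent.P112.T580.Amp
import Vale.Agent.P112.H526.R0

/-!
# P112, `[GAIN]`, block (2) `[OSC]`: quiet boxes have small oscillation
-/

open MeasureTheory Set
open scoped ENNReal

noncomputable section

namespace Vale.Agent.P112.H864

open Vale.Agent.P112.T Vale.Agent.P112.H964 Vale.Agent.P112.T580 Vale.Agent.P112.H646.Gain
  Vale.Agent.P112.H8

variable {M : ℕ}

/-- A power of two between `8 / ρ` and `16 / ρ`. -/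
theorem exists_pow {ρ : ℝ} (h0 : 0 < ρ) (h1 : ρ ≤ 1) : ∃ J : ℕ, 8 / ρ ≤ 2 ^ J ∧ (2 : ℝ) ^ J ≤ 16 / ρ := by
  have h8 : (1 : ℝ) ≤ 8 / ρ := by
    rw [le_div_iff₀ h0]
    linarith
  obtain ⟨k, hk1, hk2⟩ := exists_nat_pow_near (x := 8 / ρ) (y := 2) h8 (by norm_num)
  refine ⟨k + 1, hk2.le, ?_⟩
  rw [pow_succ]
  calc (2 : ℝ) ^ k * 2 ≤ 8 / ρ * 2 := by gcongr
    _ = 16 / ρ := by ring

theorem Un_eq {E : ℕ → Set (ℝ × ℝ)} (n : ℕ) : Un E n = ⋃ j ∈ Finset.range n, E j := by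
  ext z; simp [Un]

theorem Un_ms {E : ℕ → Set (ℝ × ℝ)} (hE : ∀ j, MeasurableSet (E j)) (n : ℕ) :
    MeasurableSet (Un E n) := by
  rw [Un_eq]
  exact Finset.measurableSet_biUnion _ fun j _ => hE j

/-- The oscillation bound of a tree. -/
def gsO (C0 S : ℝ) (r : ℕ) (g : ℝ × ℝ → ℝ) (n : ℕ) (s : ℝ) (E : ℕ → Set (ℝ × ℝ))
    (w : ℝ × ℝ) : ℝ≥0∞ :=
  ENNReal.ofReal (64 * C0 ^ 2 * (1 + S) * (2 + S) ^ 2 * (16 / 2 ^ r)) *
    GR s (Un E n) g (w.1, w.2 + s * w.1)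

theorem gsO_meas (C0 S : ℝ) (r : ℕ) {g : ℝ × ℝ → ℝ} (hg : Measurable g) (n : ℕ) (s : ℝ)
    {E : ℕ → Set (ℝ × ℝ)} (hE : ∀ j, MeasurableSet (E j)) : Measurable (gsO C0 S r g n s E) := by
  unfold gsO
  refine Measurable.const_mul ?_ _
  exact (GR_meas s (Un_ms hE n) hg).comp (by fun_prop)

theorem lint_untilt (s : ℝ) {f : ℝ × ℝ → ℝ≥0∞} (hf : Measurable f) :
    ∫⁻ z : ℝ × ℝ, f (z.1, z.2 + s * z.1) = ∫⁻ z, f z := by
  have h := Bxs.lint_tilt (-s) hf
  rw [← h]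
  refine lintegral_congr fun z => ?_
  congr 2
  ring

theorem gsO_sq {C0 S : ℝ} (r : ℕ) {g : ℝ × ℝ → ℝ} (hg : Measurable g) (hg1 : ∀ z, |g z| ≤ 1)
    (n : ℕ) (s : ℝ) {E : ℕ → Set (ℝ × ℝ)} (hE : ∀ j, MeasurableSet (E j)) :
    ∫⁻ w, gsO C0 S r g n s E w ^ 2 ≤
      ENNReal.ofReal (64 * C0 ^ 2 * (1 + S) * (2 + S) ^ 2 * (16 / 2 ^ r)) ^ 2 *
        (HL.CM 2 * HL.CM 2) * volume (Un E n) := by
  set c := ENNReal.ofReal (64 * C0 ^ 2 * (1 + S) * (2 + S) ^ 2 * (16 / 2 ^ r)) with hc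
  have hU := Un_ms hE n
  have hm := GR_meas s hU hg
  have h1 : ∫⁻ w, gsO C0 S r g n s E w ^ 2 = c ^ 2 * ∫⁻ w, GR s (Un E n) g w ^ 2 := by
    unfold gsO
    simp only [mul_pow, ← hc]
    have h0 : Measurable fun w : ℝ × ℝ => GR s (Un E n) g (w.1, w.2 + s * w.1) ^ 2 :=
      (hm.comp (g := GR s (Un E n) g) (f := fun w : ℝ × ℝ => (w.1, w.2 + s * w.1))
        (by fun_prop)).pow_const 2
    rw [lintegral_const_mul _ h0, lint_untilt s (hm.pow_const 2)]
  have h2 : ∫⁻ w, GR s (Un E n) g w ^ 2 ≤ HL.CM 2 * HL.CM 2 * volume (Un E n) := by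
    have h3 := GR_Lp (p := 2) (by norm_num) s hU hg
    calc ∫⁻ w, GR s (Un E n) g w ^ 2 = ∫⁻ w, GR s (Un E n) g w ^ (2 : ℝ) := by
          refine lintegral_congr fun w => ?_
          rw [ENNReal.rpow_two]
      _ ≤ HL.CM 2 * HL.CM 2 * ∫⁻ z in Un E n, ‖g z‖ₑ ^ (2 : ℝ) := h3
      _ ≤ HL.CM 2 * HL.CM 2 * ∫⁻ _ in Un E n, 1 := by
          gcongr with z
          rw [ENNReal.rpow_two]
          refine pow_le_one₀ zero_le ?_
          rw [Real.enorm_eq_ofReal_abs, ← ENNReal.ofReal_one]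
          exact ENNReal.ofReal_le_ofReal (hg1 z)
      _ = _ := by rw [setLIntegral_one]
  rw [h1, mul_assoc]
  gcongr

theorem sum_vol {ι : Type} [Fintype ι] {u : ℝ × ℝ → ℝ} {S Q : ℝ} {n : ℕ} {s : ι → ℝ}
    {E : ι → ℕ → Set (ℝ × ℝ)} (hT : SepTrees u S Q n s E) {F : Set (ℝ × ℝ)}
    (hF : ∀ i j, E i j ⊆ F) : ∑ i, volume (Un (E i) n) ≤ volume F := by
  rw [← measure_biUnion_finset]
  · refine measure_mono ?_
    intro z hz
    simp only [mem_iUnion] at hz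
    obtain ⟨i, -, j, -, hz⟩ := hz
    exact hF i j hz
  · intro i _ i' _ hne
    rw [Function.onFun, Set.disjoint_left]
    rintro z ⟨j, -, hj⟩ ⟨j', -, hj'⟩
    exact hne (hT.uniq i i' j j' z hj hj')
  · intro i _
    exact Un_ms (hT.meas i) n

/-- `[OSC]` -/
theorem stOsc (κ : Ker M) : StOsc κ := by
  obtain ⟨C0, hκ⟩ := H526.R0.exists_Bd κ
  set D : ℝ := 18432 * C0 ^ 2 * (HL.CM 2).toReal with hD
  have hD0 : 0 ≤ D := by positivity
  refine ⟨4 + D, 3, by linarith, ?_⟩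
  intro u hu n g hg hg1 S Q H0 θ r hS hH0 hSH hθ hθ1 hr ι _ s E hT hE N0 K _ X hB hq
  have hr4 : (4 : ℕ) ≤ r := by
    have : (4 : ℝ) ≤ r := by linarith
    exact_mod_cast this
  have hr16 : (16 : ℝ) ≤ 2 ^ r := by
    calc (16 : ℝ) = 2 ^ 4 := by norm_num
      _ ≤ 2 ^ r := pow_le_pow_right₀ (by norm_num) hr4
  have hr0 : (0 : ℝ) < 2 ^ r := by positivity
  refine ⟨fun i => gsO C0 S r g n (s i) (E i), fun i => gsO_meas C0 S r hg.meas n (s i) (hT.meas i),
    ?_, ?_⟩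
  · intro a k x hx x' hx' t ht
    set i := (X a).tb k with hi
    set lam := (X a).lam k with hlam
    have hlam0 : 0 < lam := (X a).lam_pos k
    have hlen : lam ≤ 1 / 2 ^ r := hB.len a k
    set ρ : ℝ := 2 ^ r * lam with hρ
    have hρ0 : 0 < ρ := by positivity
    have hρ1 : ρ ≤ 1 := by
      rw [le_div_iff₀ hr0] at hlen
      rw [hρ]
      linarith
    obtain ⟨J, hJ1, hJ2⟩ := exists_pow hρ0 hρ1
    have h2J : (0 : ℝ) < 2 ^ J := by positivity
    have hxx : |x' - x| ≤ lam := by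
      have h1 := hx.1
      have h2 := hx.2
      have h3 := hx'.1
      have h4 := hx'.2
      rw [abs_le]
      constructor <;> linarith
    have hlJ : lam * 2 ^ J ≤ 16 / 2 ^ r := by
      calc lam * 2 ^ J ≤ lam * (16 / ρ) := by gcongr
        _ = 16 / 2 ^ r := by
          rw [hρ]
          field_simp
    have h16 : (16 : ℝ) / 2 ^ r ≤ 1 := by
      rw [div_le_one hr0]
      exact hr16
    have hstep : |x' - x| ≤ 1 / 2 ^ J := by
      rw [le_div_iff₀ h2J]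
      calc |x' - x| * 2 ^ J ≤ lam * 2 ^ J := by gcongr
        _ ≤ 1 := hlJ.trans h16
    have key := amp_one (κ := κ) hκ (A := S) (by linarith) hu.meas hg (hT.meas i) (s := s i)
      (n := n) (fun j _ z hz => by simpa using hT.slope i j z hz) (J := J) (x := x)
      (t := x' - x) (y := t + s i * x) hstep (by
        intro l hJl hln z hz hoff
        have hoff' : |z.2 - s i * z.1 - t| ≤ 1 + S := by
          have e : z.2 - s i * z.1 - (t + s i * x - s i * x) = z.2 - s i * z.1 - t := by ring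
          rwa [e] at hoff
        have hab := abs_le.1 hoff'
        have hshort : 1 / 2 ^ l < 2 ^ r * (X a).lam k := by
          have h1 : (2 : ℝ) ^ J < 2 ^ l := pow_lt_pow_right₀ (by norm_num) hJl
          have h2 : 8 / ρ < 2 ^ l := lt_of_le_of_lt hJ1 h1
          rw [div_lt_iff₀ hρ0] at h2
          rw [div_lt_iff₀ (by positivity)]
          have h3 : (0 : ℝ) < 2 ^ l * ρ := by positivity
          have h4 : 2 ^ r * (X a).lam k * 2 ^ l = 2 ^ l * ρ := by rw [hρ, hlam]; ring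
          rw [h4]
          linarith
        have h5 := hq a k l hshort z hz (by
          have := ht.1
          show (X a).y0 k - (3 + S) ≤ z.2 - s i * z.1
          linarith [hab.1]) (by
          have := ht.2
          show z.2 - s i * z.1 ≤ (X a).y0 k + (1 + θ) * H0 + (3 + S)
          linarith [hab.2]) x hx
        refine lt_of_le_of_lt ?_ h5
        rw [div_le_iff₀ h2J]
        rw [div_le_iff₀ hρ0] at hJ1
        have h4 : 2 ^ r * (X a).lam k / 4 * 2 ^ J = 2 ^ J * ρ / 4 := by rw [hρ, hlam]; ring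
        rw [h4]
        linarith)
    have e1 : x + (x' - x) = x' := by ring
    have e2 : t + s i * x + s i * (x' - x) = t + s i * x' := by ring
    rw [e1, e2] at key
    have e3 : ‖tg κ u g n s E i (x, t) - tg κ u g n s E i (x', t)‖ₑ =
        ‖κ.FS u g (E i) n (x', t + s i * x') - κ.FS u g (E i) n (x, t + s i * x)‖ₑ := by
      unfold tg
      simp only
      rw [← Complex.ofReal_sub, ← enorm_neg, ← Complex.ofReal_neg, neg_sub]
      rw [← ofReal_norm, ← ofReal_norm, Complex.norm_real]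
    rw [e3]
    refine key.trans ?_
    unfold gsO
    simp only
    gcongr ?_ * _
    refine ENNReal.ofReal_le_ofReal ?_
    have hC : 0 ≤ 64 * C0 ^ 2 * (1 + S) * (2 + S) ^ 2 := by positivity
    calc 64 * C0 ^ 2 * (1 + S) * (2 + S) ^ 2 * |x' - x| * 2 ^ J
        = 64 * C0 ^ 2 * (1 + S) * (2 + S) ^ 2 * (|x' - x| * 2 ^ J) := by ring
      _ ≤ 64 * C0 ^ 2 * (1 + S) * (2 + S) ^ 2 * (16 / 2 ^ r) := by
        refine mul_le_mul_of_nonneg_left ?_ hC
        calc |x' - x| * 2 ^ J ≤ lam * 2 ^ J := by gcongr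
          _ ≤ _ := hlJ
  · set c := ENNReal.ofReal (64 * C0 ^ 2 * (1 + S) * (2 + S) ^ 2 * (16 / 2 ^ r)) with hc
    have hcm : HL.CM 2 = ENNReal.ofReal (HL.CM 2).toReal :=
      (ENNReal.ofReal_toReal (HL.CM_ne_top 2)).symm
    calc ∑ i, ∫⁻ w, gsO C0 S r g n (s i) (E i) w ^ 2
        ≤ ∑ i, c ^ 2 * (HL.CM 2 * HL.CM 2) * volume (Un (E i) n) :=
          Finset.sum_le_sum fun i _ => gsO_sq r hg.meas hg1 n (s i) (hT.meas i)
      _ = c ^ 2 * (HL.CM 2 * HL.CM 2) * ∑ i, volume (Un (E i) n) := by rw [Finset.mul_sum]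
      _ ≤ c ^ 2 * (HL.CM 2 * HL.CM 2) * volume {z | g z ≠ 0} := by
          gcongr
          exact sum_vol hT hE
      _ ≤ _ := by
          gcongr ?_ * _
          rw [hcm, hc, ← ENNReal.ofReal_mul (by positivity), ← ENNReal.ofReal_pow (by positivity),
            ← ENNReal.ofReal_mul (by positivity)]
          refine ENNReal.ofReal_le_ofReal ?_
          set m := (HL.CM 2).toReal with hm
          have hm0 : 0 ≤ m := ENNReal.toReal_nonneg
          have h1 : 64 * C0 ^ 2 * (1 + S) * (2 + S) ^ 2 * (16 / 2 ^ r) ≤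
              18432 * C0 ^ 2 * S ^ 3 / 2 ^ r := by
            have h2 : (1 + S) * (2 + S) ^ 2 ≤ 18 * S ^ 3 := by
              have a1 : 1 + S ≤ 2 * S := by linarith
              have a2 : 2 + S ≤ 3 * S := by linarith
              calc (1 + S) * (2 + S) ^ 2 ≤ (2 * S) * (3 * S) ^ 2 := by gcongr
                _ = 18 * S ^ 3 := by ring
            calc 64 * C0 ^ 2 * (1 + S) * (2 + S) ^ 2 * (16 / 2 ^ r)
                = 1024 * C0 ^ 2 * ((1 + S) * (2 + S) ^ 2) / 2 ^ r := by ring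
              _ ≤ 1024 * C0 ^ 2 * (18 * S ^ 3) / 2 ^ r := by gcongr
              _ = _ := by ring
          have h0 : 0 ≤ 64 * C0 ^ 2 * (1 + S) * (2 + S) ^ 2 * (16 / 2 ^ r) := by positivity
          calc (64 * C0 ^ 2 * (1 + S) * (2 + S) ^ 2 * (16 / 2 ^ r)) ^ 2 * (m * m)
              = (64 * C0 ^ 2 * (1 + S) * (2 + S) ^ 2 * (16 / 2 ^ r) * m) ^ 2 := by ring
            _ ≤ (18432 * C0 ^ 2 * S ^ 3 / 2 ^ r * m) ^ 2 := by gcongr
            _ = (D * S ^ 3 / 2 ^ r) ^ 2 := by rw [hD]; ring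
            _ ≤ _ := by
              have : D ≤ 4 + D := by linarith
              gcongr

end Vale.Agent.P112.H864
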