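import Vale.Agent.P112.H646.Defs

/-!
# P112, chapter (G): canonical clusters (`StLam`, `StLoc`, `StCh`, `StPar`, `StFew`)
-/

noncomputable section

namespace Vale.Agent.P112.H864

open Vale.Agent.P112.H646

variable {ι : Type} {A : ℝ} {s : ι → ℝ}

theorem mem_ch {P C : Finset ι} : C ∈ ch A s P ↔ C ⊆ P ∧ C ≠ P ∧ Iso A s C P ∧
    ∀ C' : Finset ι, C' ≠ P → Iso A s C' P → C ⊆ C' → C' = C := by
  classical
  unfold ch
  rw [Finset.mem_filter, Finset.mem_powerset]

theorem mem_U {D : Finset (Finset ι)} {x : ι} : x ∈ U D ↔ ∃ C ∈ D, x ∈ C := by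
  classical
  unfold U
  rw [Finset.mem_biUnion]
  rfl

/-- two members at maximal distance -/
theorem exists_diam {P : Finset ι} (hP : P.Nonempty) (s : ι → ℝ) :
    ∃ i ∈ P, ∃ j ∈ P, ∀ x ∈ P, ∀ y ∈ P, |s x - s y| ≤ |s i - s j| := by
  obtain ⟨p, hp, hmax⟩ := (P ×ˢ P).exists_max_image (fun p => |s p.1 - s p.2|)
    (hP.product hP)
  rw [Finset.mem_product] at hp
  exact ⟨p.1, hp.1, p.2, hp.2, fun x hx y hy => hmax (x, y) (Finset.mem_product.2 ⟨hx, hy⟩)⟩

theorem sub_of_diam {P P' S : Finset ι} (hA : 1 ≤ A) (hP : P ⊆ S) (hP' : Iso A s P' S)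
    {x : ι} (hx : x ∈ P) (hx' : x ∈ P') {i j i' j' : ι}
    (hmax : ∀ x ∈ P, ∀ y ∈ P, |s x - s y| ≤ |s i - s j|) (hi' : i' ∈ P') (hj' : j' ∈ P')
    (hle : |s i - s j| ≤ |s i' - s j'|) : P ⊆ P' := by
  intro k hk
  refine hP'.2.2 k (hP hk) ⟨i', hi', j', hj', x, hx', ?_⟩
  have h1 := hmax x hx k hk
  have h2 : |s i' - s j'| ≤ A * |s i' - s j'| := le_mul_of_one_le_left (abs_nonneg _) hA
  linarith

theorem lam_aux {P P' S : Finset ι} (hA : 1 ≤ A) (hP : Iso A s P S) (hP' : Iso A s P' S) :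
    P ⊆ P' ∨ P' ⊆ P ∨ Disjoint P P' := by
  by_cases hd : Disjoint P P'
  · exact Or.inr (Or.inr hd)
  · rw [Finset.not_disjoint_iff] at hd
    obtain ⟨x, hx, hx'⟩ := hd
    obtain ⟨i, hi, j, hj, hm⟩ := exists_diam hP.1 s
    obtain ⟨i', hi', j', hj', hm'⟩ := exists_diam hP'.1 s
    rcases le_total |s i - s j| |s i' - s j'| with h | h
    · exact Or.inl (sub_of_diam hA hP.2.1 hP' hx hx' hm hi' hj' h)
    · exact Or.inr (Or.inl (sub_of_diam hA hP'.2.1 hP hx' hx hm' hi hj h))

theorem stLam : StLam := fun _ _ _ _ _ _ hA hP hP' => lam_aux hA hP hP'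

theorem stLoc : StLoc := by
  intro ι A s C P S hP
  constructor
  · intro hC
    refine ⟨hC.2.1, hC.1, hC.2.1.trans hP.2.1, fun k hk hn => ?_⟩
    refine hC.2.2 k (hP.2.2 k hk ?_) hn
    obtain ⟨i, hi, j, hj, i', hi', h⟩ := hn
    exact ⟨i, hC.2.1 hi, j, hC.2.1 hj, i', hC.2.1 hi', h⟩
  · rintro ⟨hCP, hC⟩
    exact ⟨hC.1, hCP, fun k hk hn => hC.2.2 k (hP.2.1 hk) hn⟩

/-- every proper isolated subset lies in a child -/
theorem exists_child {P T : Finset ι} (hT : Iso A s T P) (hne : T ≠ P) :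
    ∃ C ∈ ch A s P, T ⊆ C := by
  classical
  obtain ⟨C, hC, hmax⟩ := (P.powerset.filter fun C => C ≠ P ∧ Iso A s C P ∧ T ⊆ C).exists_max_image
    Finset.card ⟨T, Finset.mem_filter.2 ⟨Finset.mem_powerset.2 hT.2.1, hne, hT, subset_rfl⟩⟩
  rw [Finset.mem_filter, Finset.mem_powerset] at hC
  refine ⟨C, mem_ch.2 ⟨hC.1, hC.2.1, hC.2.2.1, fun C' h1 h2 h3 => ?_⟩, hC.2.2.2⟩
  have h4 := hmax C' (Finset.mem_filter.2 ⟨Finset.mem_powerset.2 h2.2.1, h1, h2,
    hC.2.2.2.trans h3⟩)
  exact (Finset.eq_of_subset_of_card_le h3 h4).symm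

theorem iso_singleton {P : Finset ι} (hs : Set.InjOn s (P : Set ι)) {i : ι} (hi : i ∈ P) :
    Iso A s {i} P := by
  refine ⟨Finset.singleton_nonempty i, Finset.singleton_subset_iff.2 hi, ?_⟩
  rintro k hk ⟨a, ha, b, hb, c, hc, h⟩
  rw [Finset.mem_singleton] at ha hb hc ⊢
  subst ha
  subst hb
  subst hc
  rw [sub_self, abs_zero, mul_zero] at h
  have h2 : s c - s k = 0 := abs_eq_zero.1 (le_antisymm h (abs_nonneg _))
  exact (hs (Finset.mem_coe.2 hi) (Finset.mem_coe.2 hk) (sub_eq_zero.1 h2)).symm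

theorem ch_disj {P C C' : Finset ι} (hA : 1 ≤ A) (hC : C ∈ ch A s P) (hC' : C' ∈ ch A s P)
    (hne : C ≠ C') : Disjoint C C' := by
  rw [mem_ch] at hC hC'
  rcases lam_aux hA hC.2.2.1 hC'.2.2.1 with h | h | h
  · exact absurd (hC.2.2.2 C' hC'.2.1 hC'.2.2.1 h).symm hne
  · exact absurd (hC'.2.2.2 C hC.2.1 hC.2.2.1 h) hne
  · exact h

theorem single_ne {P : Finset ι} (h2 : 2 ≤ P.card) (i : ι) : ({i} : Finset ι) ≠ P := by
  rintro rfl
  rw [Finset.card_singleton] at h2
  omega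

theorem exists_mem_child {P : Finset ι} (hs : Set.InjOn s (P : Set ι)) (h2 : 2 ≤ P.card) {i : ι}
    (hi : i ∈ P) : ∃ C ∈ ch A s P, i ∈ C := by
  obtain ⟨C, hC, h⟩ := exists_child (A := A) (iso_singleton hs hi) (single_ne h2 i)
  exact ⟨C, hC, h (Finset.mem_singleton_self i)⟩

theorem U_ch {P : Finset ι} (hs : Set.InjOn s (P : Set ι)) (h2 : 2 ≤ P.card) :
    U (ch A s P) = P := by
  ext x
  rw [mem_U]
  constructor
  · rintro ⟨C, hC, hx⟩
    exact (mem_ch.1 hC).1 hx
  · intro hx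
    exact exists_mem_child hs h2 hx

theorem stCh : StCh := by
  intro ι A s P hA hs h2
  refine ⟨fun C hC => ?_, fun C hC C' hC' hne => ch_disj hA hC hC' hne, U_ch hs h2, ?_⟩
  · have h := mem_ch.1 hC
    exact ⟨h.2.2.1.1, h.1, Finset.card_lt_card (Finset.ssubset_iff_subset_ne.2 ⟨h.1, h.2.1⟩)⟩
  · by_contra hc
    have hP : P.Nonempty := Finset.card_pos.1 (by omega)
    obtain ⟨x, hx⟩ := hP
    obtain ⟨C, hC, _⟩ := exists_mem_child (A := A) hs h2 hx
    have h1 : (ch A s P).card ≤ 1 := by omega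
    have hall : ∀ C' ∈ ch A s P, C' = C := fun C' hC' => Finset.card_le_one.1 h1 C' hC' C hC
    have hU : U (ch A s P) = C := by
      ext y
      rw [mem_U]
      constructor
      · rintro ⟨C', hC', hy⟩
        rw [hall C' hC'] at hy
        exact hy
      · intro hy
        exact ⟨C, hC, hy⟩
    rw [U_ch hs h2] at hU
    exact (mem_ch.1 hC).2.1 hU.symm

theorem par_aux {C P P' S : Finset ι} (hP : Iso A s P S) (hP' : Iso A s P' S)
    (hC : C ∈ ch A s P) (hC' : C ∈ ch A s P') (h : P ⊆ P') : P = P' := by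
  by_contra hne
  have h1 : Iso A s P P' := ⟨hP.1, h, fun k hk hn => hP.2.2 k (hP'.2.1 hk) hn⟩
  have h2 := (mem_ch.1 hC').2.2.2 P hne h1 (mem_ch.1 hC).1
  exact (mem_ch.1 hC).2.1 h2.symm

theorem stPar : StPar := by
  intro ι A s C P P' S hA hP hP' hC hC'
  rcases lam_aux hA hP hP' with h | h | h
  · exact par_aux hP hP' hC hC' h
  · exact (par_aux hP' hP hC' hC h).symm
  · exfalso
    obtain ⟨x, hx⟩ := (mem_ch.1 hC).2.2.1.1
    exact Finset.disjoint_left.1 h ((mem_ch.1 hC).1 hx) ((mem_ch.1 hC').1 hx)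

/-- The annuli argument: two points in the same arc lie in a common proper isolated set. -/
theorem annuli {H1 : ℝ} {m : ℕ} {P : Finset ι} (hA : 1 ≤ A)
    (hH : 4 * (2 * A + 1) ^ (2 * m + 2) ≤ H1) (hs : Set.InjOn s (P : Set ι)) {k : ι} (hk : k ∈ P)
    {c : Fin m → ℝ} (hc : ∀ i ∈ P, i ≠ k → ∃ r, |s i - c r| ≤ |c r - s k| / H1) {r : Fin m}
    {p p' : ι} (hp : p ∈ P) (hp' : p' ∈ P) (hpk : p ≠ k)
    (hpr : |s p - c r| ≤ |c r - s k| / H1) (hpr' : |s p' - c r| ≤ |c r - s k| / H1) :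
    ∃ T : Finset ι, Iso A s T P ∧ T ≠ P ∧ p ∈ T ∧ p' ∈ T := by
  classical
  set q : ℝ := 2 * A + 1 with hq
  have hq3 : 3 ≤ q := by rw [hq]; linarith
  have hq0 : 0 < q := by linarith
  have hqm : (1 : ℝ) ≤ q ^ (2 * m) := one_le_pow₀ (by linarith)
  have hH36 : 36 * q ^ (2 * m) ≤ H1 := by
    refine le_trans ?_ hH
    rw [pow_add]
    have : (9 : ℝ) ≤ q ^ 2 := by nlinarith
    nlinarith
  have hH1 : 36 ≤ H1 := by linarith
  have hH0 : 0 < H1 := by linarith
  set D := |c r - s k| with hD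
  set R := D / H1 with hR
  have hDR : D = H1 * R := by rw [hR]; field_simp
  have hR0 : 0 < R := by
    rw [hR]
    refine div_pos ?_ hH0
    rw [hD]
    refine lt_of_le_of_ne (abs_nonneg _) (fun h0 => hpk ?_)
    have hR00 : R = 0 := by rw [hR, hD, ← h0, zero_div]
    rw [hR00] at hpr
    have h1 : s p - c r = 0 := abs_eq_zero.1 (le_antisymm hpr (abs_nonneg _))
    have h2 : c r - s k = 0 := abs_eq_zero.1 h0.symm
    exact hs (Finset.mem_coe.2 hp) (Finset.mem_coe.2 hk) (by linarith)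
  set D0 := |s k - s p| with hD0
  have hD0l : (H1 - 1) * R ≤ D0 := by
    have h1 : D ≤ |s p - c r| + D0 := by
      rw [hD, hD0]
      have e : c r - s k = (s p - s k) - (s p - c r) := by ring
      rw [e]
      refine (abs_sub _ _).trans ?_
      rw [abs_sub_comm (s p) (s k)]
      linarith
    nlinarith
  have hD0u : D0 ≤ (H1 + 1) * R := by
    have h1 : D0 ≤ |s p - c r| + D := by
      rw [hD, hD0]
      have e : s k - s p = -((s p - c r) + (c r - s k)) := by ring
      rw [e, abs_neg]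
      exact abs_add_le _ _
    nlinarith
  set ρ0 := 3 * R with hρ0
  have hρpos : 0 < ρ0 := by rw [hρ0]; linarith
  have hbig : ρ0 * q ^ (2 * m) ≤ D0 := by
    refine le_trans ?_ hD0l
    rw [hρ0]
    nlinarith
  -- radii
  have hrad : ∀ t : ℕ, t < m → q * (ρ0 * q ^ (2 * t)) ≤ ρ0 * q ^ (2 * m) := by
    intro t ht
    have h1 : q ^ (2 * t + 1) ≤ q ^ (2 * m) := pow_le_pow_right₀ (by linarith) (by omega)
    calc q * (ρ0 * q ^ (2 * t)) = ρ0 * q ^ (2 * t + 1) := by rw [pow_succ]; ring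
      _ ≤ ρ0 * q ^ (2 * m) := by gcongr
  have hrad0 : ∀ t : ℕ, ρ0 ≤ ρ0 * q ^ (2 * t) := by
    intro t
    exact le_mul_of_one_le_right hρpos.le (one_le_pow₀ (by linarith))
  -- an empty annulus
  have hempty : ∃ t : ℕ, t < m ∧ ∀ i ∈ P, ¬ (ρ0 * q ^ (2 * t) ≤ |s i - s p| ∧
      |s i - s p| < q * (ρ0 * q ^ (2 * t))) := by
    by_contra hcon
    push Not at hcon
    have hcon' : ∀ t : Fin m, ∃ i ∈ P, ρ0 * q ^ (2 * (t : ℕ)) ≤ |s i - s p| ∧
        |s i - s p| < q * (ρ0 * q ^ (2 * (t : ℕ))) := fun t => hcon t t.2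
    choose i hiP hi using hcon'
    have hik : ∀ t, i t ≠ k := by
      intro t h0
      have h1 := (hi t).2
      rw [h0] at h1
      have h2 := hrad t t.2
      linarith
    have harc : ∀ t, ∃ r', |s (i t) - c r'| ≤ |c r' - s k| / H1 := fun t => hc _ (hiP t) (hik t)
    choose f hf using harc
    have hRb : ∀ t, |c (f t) - s k| / H1 ≤ 3 * R := by
      intro t
      set R' := |c (f t) - s k| / H1 with hR'
      have hR'0 : 0 ≤ R' := by rw [hR']; positivity
      have h1 : |c (f t) - s k| = H1 * R' := by rw [hR']; field_simp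
      have h2 : |c (f t) - s k| ≤ R' + (|s (i t) - s p| + D0) := by
        have e : c (f t) - s k = -(s (i t) - c (f t)) + ((s (i t) - s p) - (s k - s p)) := by ring
        rw [e]
        refine (abs_add_le _ _).trans (add_le_add ?_ (abs_sub _ _))
        rw [abs_neg]
        exact hf t
      have h3 := (hi t).2
      have h4 := hrad t t.2
      have h5 : (H1 - 1) * R' ≤ 2 * D0 := by nlinarith
      have h6 : (H1 - 1) * R' ≤ 2 * ((H1 + 1) * R) := by linarith
      by_contra hc3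
      have hc3 := not_le.1 hc3
      nlinarith
    have hinj : ∀ t t' : Fin m, t < t' → f t ≠ f t' := by
      intro t t' htt h0
      have h1 : |s (i t) - s (i t')| ≤ 6 * R := by
        have e : s (i t) - s (i t') = (s (i t) - c (f t)) - (s (i t') - c (f t)) := by ring
        rw [e]
        refine (abs_sub _ _).trans ?_
        have h2 := hf t
        have h3 := hf t'
        rw [← h0] at h3
        have h4 := hRb t
        linarith
      have h5 := (hi t).2
      have h6 := (hi t').1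
      have h7 : q * (q * (ρ0 * q ^ (2 * (t : ℕ)))) ≤ ρ0 * q ^ (2 * (t' : ℕ)) := by
        have h8 : q ^ (2 * (t : ℕ) + 2) ≤ q ^ (2 * (t' : ℕ)) :=
          pow_le_pow_right₀ (by linarith) (by have : (t : ℕ) < t' := htt; omega)
        calc q * (q * (ρ0 * q ^ (2 * (t : ℕ)))) = ρ0 * q ^ (2 * (t : ℕ) + 2) := by
              rw [pow_add]; ring
          _ ≤ _ := by gcongr
      have h9 : |s (i t') - s p| ≤ |s (i t) - s (i t')| + |s (i t) - s p| := by
        have e : s (i t') - s p = -(s (i t) - s (i t')) + (s (i t) - s p) := by ring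
        rw [e]
        refine (abs_add_le _ _).trans ?_
        rw [abs_neg]
      have h10 := hrad0 t
      set X := ρ0 * q ^ (2 * (t : ℕ))
      have h11 : 3 * (q * X) ≤ q * (q * X) := by
        have : 0 ≤ q * X := by positivity
        nlinarith
      have h12 : 3 * X ≤ q * X := by
        have : 0 ≤ X := by linarith
        nlinarith
      rw [hρ0] at h10
      linarith
    have hfinj : Function.Injective f := by
      intro t t' h
      rcases lt_trichotomy t t' with h1 | h1 | h1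
      · exact absurd h (hinj t t' h1)
      · exact h1
      · exact absurd h.symm (hinj t' t h1)
    obtain ⟨t, ht⟩ := (Finite.surjective_of_injective hfinj) r
    have h1 := hf t
    rw [ht] at h1
    have h2 : |s (i t) - s p| ≤ 2 * R := by
      have e : s (i t) - s p = (s (i t) - c r) - (s p - c r) := by ring
      rw [e]
      refine (abs_sub _ _).trans ?_
      linarith
    have h3 := (hi t).1
    have h4 := hrad0 t
    linarith
  obtain ⟨t, htm, ht⟩ := hempty
  set X := ρ0 * q ^ (2 * t) with hX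
  have hX0 : ρ0 ≤ X := hrad0 t
  have hXk : q * X ≤ D0 := (hrad t htm).trans hbig
  refine ⟨P.filter fun i => |s i - s p| < X, ⟨⟨p, ?_⟩, Finset.filter_subset _ _, ?_⟩, ?_, ?_, ?_⟩
  · rw [Finset.mem_filter]
    exact ⟨hp, by rw [sub_self, abs_zero]; linarith⟩
  · rintro k' hk' ⟨a, ha, b, hb, d, hd, h⟩
    rw [Finset.mem_filter] at ha hb hd ⊢
    refine ⟨hk', ?_⟩
    by_contra hnlt
    have h1 : q * X ≤ |s k' - s p| := by
      by_contra h2
      exact ht k' hk' ⟨not_lt.1 hnlt, not_le.1 h2⟩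
    have h2 : |s a - s b| < 2 * X := by
      have e : s a - s b = (s a - s p) - (s b - s p) := by ring
      rw [e]
      exact (abs_sub _ _).trans_lt (by linarith [ha.2, hb.2])
    have h3 : |s k' - s p| ≤ |s d - s k'| + |s d - s p| := by
      have e : s k' - s p = -(s d - s k') + (s d - s p) := by ring
      rw [e]
      refine (abs_add_le _ _).trans ?_
      rw [abs_neg]
    have h4 : A * |s a - s b| ≤ A * (2 * X) := by gcongr
    have h5 : q * X = 2 * A * X + X := by rw [hq]; ring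
    linarith [hd.2]
  · intro h0
    have : k ∈ P.filter fun i => |s i - s p| < X := by rw [h0]; exact hk
    rw [Finset.mem_filter] at this
    have h1 : X ≤ q * X := by nlinarith
    have h2 := this.2
    rw [← hD0] at h2
    linarith
  · rw [Finset.mem_filter]
    exact ⟨hp, by rw [sub_self, abs_zero]; linarith⟩
  · rw [Finset.mem_filter]
    refine ⟨hp', ?_⟩
    have e : s p' - s p = (s p' - c r) - (s p - c r) := by ring
    rw [e]
    refine (abs_sub _ _).trans_lt ?_
    linarith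

theorem stFew : StFew := by
  classical
  intro ι A H1 m s P hA hH hs h2 harc
  obtain ⟨k, hk, c, hc⟩ := harc P subset_rfl h2
  obtain ⟨Ck, hCk, hkC⟩ := exists_mem_child (A := A) hs h2 hk
  have hmap : ∀ C ∈ (ch A s P).erase Ck, ∃ p ∈ C, p ≠ k ∧ ∃ r, |s p - c r| ≤ |c r - s k| / H1 := by
    intro C hC
    rw [Finset.mem_erase] at hC
    obtain ⟨p, hp⟩ := (mem_ch.1 hC.2).2.2.1.1
    have hpk : p ≠ k := by
      rintro rfl
      exact Finset.disjoint_left.1 (ch_disj hA hC.2 hCk hC.1) hp hkC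
    exact ⟨p, hp, hpk, hc p ((mem_ch.1 hC.2).1 hp) hpk⟩
  by_cases hne0 : ((ch A s P).erase Ck).Nonempty
  swap
  · rw [Finset.not_nonempty_iff_eq_empty] at hne0
    have h3 := Finset.card_erase_of_mem hCk
    rw [hne0, Finset.card_empty] at h3
    omega
  have : Nonempty (Fin m) := by
    obtain ⟨C0, hC0⟩ := hne0
    obtain ⟨_, _, _, r0, _⟩ := hmap C0 hC0
    exact ⟨r0⟩
  choose! p hpC hpk r hr using hmap
  have hinj : Set.InjOn r ((ch A s P).erase Ck : Set (Finset ι)) := by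
    intro C hC C' hC' h
    rw [Finset.mem_coe] at hC hC'
    have hC2 := (Finset.mem_erase.1 hC).2
    have hC2' := (Finset.mem_erase.1 hC').2
    have h3 := hr C' hC'
    rw [← h] at h3
    obtain ⟨T, hT, hTne, h4, h5⟩ := annuli hA hH hs hk hc ((mem_ch.1 hC2).1 (hpC C hC))
      ((mem_ch.1 hC2').1 (hpC C' hC')) (hpk C hC) (hr C hC) h3
    obtain ⟨C'', hC'', hTC⟩ := exists_child hT hTne
    have e1 : C = C'' := by
      by_contra hne
      exact Finset.disjoint_left.1 (ch_disj hA hC2 hC'' hne) (hpC C hC) (hTC h4)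
    have e2 : C' = C'' := by
      by_contra hne
      exact Finset.disjoint_left.1 (ch_disj hA hC2' hC'' hne) (hpC C' hC') (hTC h5)
    rw [e1, e2]
  have hcard : ((ch A s P).erase Ck).card ≤ m := by
    have := Finset.card_le_card_of_injOn r (t := (Finset.univ : Finset (Fin m)))
      (fun _ _ => Finset.mem_coe.2 (Finset.mem_univ _)) hinj
    simpa using this
  rw [Finset.card_erase_of_mem hCk] at hcard
  omega

end Vale.Agent.P112.H864

end
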