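import Vale.Agent.P112.H964.StT4a
import Vale.Agent.P112.T.Basic

/-!
# P112: vertical profiles of the tree functions

For `|g| ≤ 1` the tree function `κ.FS u g E n` varies slowly along the lines of the slope of the
tree, at every point near which only coarse scales are active.
-/

open MeasureTheory Set
open scoped ContDiff

set_option linter.dupNamespace false

namespace Vale.Agent.P112.H864

open Vale.Agent.P112.T Vale.Agent.P112.H964

noncomputable section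

variable {M : ℕ}

theorem box_eq (r b x y : ℝ) : {z : ℝ × ℝ | |z.1 - x| ≤ r ∧ |z.2 - y| ≤ b} =
    Icc (x - r) (x + r) ×ˢ Icc (y - b) (y + b) := by
  ext z
  constructor
  · rintro ⟨h1, h2⟩
    have h1 := abs_le.1 h1
    have h2 := abs_le.1 h2
    exact ⟨⟨by linarith [h1.1], by linarith [h1.2]⟩, ⟨by linarith [h2.1], by linarith [h2.2]⟩⟩
  · rintro ⟨⟨h1, h2⟩, ⟨h3, h4⟩⟩
    exact ⟨abs_le.2 ⟨by linarith, by linarith⟩, abs_le.2 ⟨by linarith, by linarith⟩⟩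

theorem Bx_le {A : ℝ} (hA : 0 ≤ A) (j : ℕ) {h : ℝ × ℝ → ℝ} (hh : ∀ z, |h z| ≤ 1) (x y : ℝ) :
    Bx A j h x y ≤ 8 * (1 + A) := by
  unfold Bx
  have h2 : (0 : ℝ) < 2 ^ j := by positivity
  have hv : volume {z : ℝ × ℝ | |z.1 - x| ≤ 2 * (2 ^ j)⁻¹ ∧ |z.2 - y| ≤ 1 + A} =
      ENNReal.ofReal (4 * (2 ^ j)⁻¹ * (2 * (1 + A))) := by
    rw [box_eq, Measure.volume_eq_prod, Measure.prod_prod, Real.volume_Icc, Real.volume_Icc,
      ← ENNReal.ofReal_mul (by ring_nf; positivity)]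
    congr 1
    ring
  have hle := norm_setIntegral_le_of_norm_le_const (μ := volume) (f := fun z => |h z|) (C := 1)
    (s := {z : ℝ × ℝ | |z.1 - x| ≤ 2 * (2 ^ j)⁻¹ ∧ |z.2 - y| ≤ 1 + A})
    (by rw [hv]; exact ENNReal.ofReal_lt_top)
    (fun z _ => by rw [Real.norm_eq_abs, abs_abs]; exact hh z)
  rw [Measure.real, hv, ENNReal.toReal_ofReal (by positivity), one_mul] at hle
  have hle2 := (le_abs_self _).trans hle
  calc 2 ^ j * ∫ z in {z : ℝ × ℝ | |z.1 - x| ≤ 2 * (2 ^ j)⁻¹ ∧ |z.2 - y| ≤ 1 + A}, |h z|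
      ≤ 2 ^ j * (4 * (2 ^ j)⁻¹ * (2 * (1 + A))) := by gcongr
    _ = 8 * (1 + A) := by field_simp; ring

variable {K ψ : ℝ → ℝ}

/-- Increments of a single scale, in the frame of the tree. -/
theorem S_incr (h : Prof K ψ) {C0 A : ℝ} {m0 : ℕ} (b : PB K ψ 1 C0 m0) (hA : 0 ≤ A)
    (hm : 1 ≤ m0) (j : ℕ) {v g : ℝ × ℝ → ℝ} (hv : Measurable v) (hg : Integrable g)
    (hg1 : ∀ z, |g z| ≤ 1) (hvg : ∀ z, g z ≠ 0 → |v z| ≤ A / 1 * 2 ^ j) (x x' y : ℝ) :
    |S K ψ 0 j v g x' y - S K ψ 0 j v g x y| ≤ 16 * C0 ^ 2 * (1 + A) ^ 2 * 2 ^ j * |x' - x| := by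
  have key := Convex.norm_image_sub_le_of_norm_hasDerivWithin_le
    (f := fun x => S K ψ 0 j v g x y) (f' := fun x => S K ψ (0 + 1) j v g x y)
    (C := 16 * C0 ^ 2 * (1 + A) ^ 2 * 2 ^ j) (s := univ) (x := x) (y := x')
    (fun x _ => (hasDerivAt_S h b hA (a := 0) (by omega) j hv hg hvg x y).hasDerivWithinAt)
    (fun x _ => ?_) convex_univ (mem_univ _) (mem_univ _)
  · simpa [Real.norm_eq_abs] using key
  · rw [Real.norm_eq_abs]
    refine (abs_S_le h b hA (a := 0 + 1) (by omega) j v g hg hvg x y x (by simp)).trans ?_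
    have h1 := Bx_le hA j hg1 x y
    calc 2 ^ (0 + 1) * C0 ^ 2 * (1 + A) ^ (0 + 1) * (2 ^ j) ^ (0 + 1) * Bx A j g x y
        ≤ 2 ^ (0 + 1) * C0 ^ 2 * (1 + A) ^ (0 + 1) * (2 ^ j) ^ (0 + 1) * (8 * (1 + A)) := by
          gcongr
      _ = _ := by ring

/-- A scale without points nearby vanishes. -/
theorem S_quiet (h : Prof K ψ) {C0 A : ℝ} {m0 : ℕ} (b : PB K ψ 1 C0 m0) (hA : 0 ≤ A) (j : ℕ)
    {v g : ℝ × ℝ → ℝ} (hvg : ∀ z, g z ≠ 0 → |v z| ≤ A / 1 * 2 ^ j) (x y : ℝ)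
    (hq : ∀ z : ℝ × ℝ, g z ≠ 0 → |z.1 - x| ≤ (2 ^ j)⁻¹ → |z.2 - y| ≤ 1 + A → False) :
    S K ψ 0 j v g x y = 0 := by
  unfold S
  refine integral_eq_zero_of_ae (Filter.Eventually.of_forall fun z => ?_)
  have h1 := ker_bdd h b hA (a := 0) (by omega) j v g hvg x y z
  have h2 : {z : ℝ × ℝ | |z.1 - x| ≤ (2 ^ j)⁻¹ ∧ |z.2 - y| ≤ 1 + A}.indicator
      (fun z => |g z|) z = 0 := by
    by_cases hz : g z = 0
    · rw [indicator_apply]
      split_ifs
      · rw [hz, abs_zero]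
      · rfl
    · refine indicator_of_notMem ?_ _
      rintro ⟨h3, h4⟩
      exact hq z hz h3 h4
  rw [h2, mul_zero] at h1
  exact abs_eq_zero.1 (le_antisymm h1 (abs_nonneg _))

theorem sum_two_pow_le (n J : ℕ) :
    ∑ i ∈ Finset.range n, (if i ≤ J then (2 : ℝ) ^ i else 0) ≤ 2 * 2 ^ J := by
  calc ∑ i ∈ Finset.range n, (if i ≤ J then (2 : ℝ) ^ i else 0)
      = ∑ i ∈ (Finset.range n).filter (· ≤ J), (2 : ℝ) ^ i := by rw [Finset.sum_filter]
    _ ≤ ∑ i ∈ Finset.range (J + 1), (2 : ℝ) ^ i := by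
        refine Finset.sum_le_sum_of_subset_of_nonneg ?_ (fun _ _ _ => by positivity)
        intro i hi
        rw [Finset.mem_filter] at hi
        rw [Finset.mem_range]
        omega
    _ = 2 ^ (J + 1) - 1 := by
        rw [geom_sum_eq (by norm_num)]
        norm_num
    _ ≤ 2 * 2 ^ J := by
        rw [pow_succ]
        linarith

/-- Increments of the tree function along its own slope. -/
theorem FS_incr (κ : Ker M) {C0 A : ℝ} (hκ : κ.Bd 1 C0) (hA : 0 ≤ A) {u : ℝ × ℝ → ℝ}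
    (hu : Field u) {n : ℕ} {E : ℕ → Set (ℝ × ℝ)} (hE : ∀ j, MeasurableSet (E j)) {s : ℝ}
    (hs : ∀ j < n, ∀ z ∈ E j, |u z - s| ≤ A * 2 ^ j) {g : ℝ × ℝ → ℝ} (hg : Nice g)
    (hg1 : ∀ z, |g z| ≤ 1) {J : ℕ} {x Y : ℝ}
    (hq : ∀ j, J < j → j < n → ∀ z ∈ E j, |z.1 - x| ≤ 2 / 2 ^ J →
      |z.2 - s * z.1 - Y| ≤ 1 + A → False) {t : ℝ} (ht : |t| ≤ 1 / 2 ^ J) :
    |κ.FS u g E n (x + t, Y + s * (x + t)) - κ.FS u g E n (x, Y + s * x)| ≤
      32 * C0 ^ 2 * (1 + A) ^ 2 * (|t| * 2 ^ J) := by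
  have hb := pb_of_bd hκ
  have hp := prof_of_ker κ
  have hT : Tr (vS s u) (fun z => g (shE s z)) (fun j => shE s ⁻¹' E j) A 1 n :=
    tr_of hA hu.meas hg.integrable hE (by simpa using hs)
  rw [FS_frame, FS_frame]
  unfold FD
  rw [← Finset.sum_sub_distrib]
  have hterm : ∀ i ∈ Finset.range n,
      |S κ.K κ.psi 0 i (vS s u) ((fun j => shE s ⁻¹' E j) i |>.indicator
        (fun z => g (shE s z))) (x + t) Y -
      S κ.K κ.psi 0 i (vS s u) ((fun j => shE s ⁻¹' E j) i |>.indicator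
        (fun z => g (shE s z))) x Y| ≤
      16 * C0 ^ 2 * (1 + A) ^ 2 * |t| * (if i ≤ J then (2 : ℝ) ^ i else 0) := by
    intro i hi
    rw [Finset.mem_range] at hi
    split_ifs with hiJ
    · have h1 := S_incr hp hb hA (by omega) i hT.mv (hT.iE i)
        (fun z => by
          by_cases hz : z ∈ (shE s ⁻¹' E i)
          · rw [indicator_of_mem hz]; exact hg1 _
          · rw [indicator_of_notMem hz, abs_zero]; exact zero_le_one)
        (hT.vE hi) x (x + t) Y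
      have e : x + t - x = t := by ring
      rw [e] at h1
      refine h1.trans (le_of_eq ?_)
      ring
    · have hJi : J < i := not_le.1 hiJ
      have h2J : (0 : ℝ) < 2 ^ J := by positivity
      have hpow : ((2 : ℝ) ^ i)⁻¹ ≤ 1 / 2 ^ J := by
        rw [one_div]
        exact inv_anti₀ h2J (pow_le_pow_right₀ (by norm_num) hJi.le)
      have hqq : ∀ x' : ℝ, |x' - x| ≤ 1 / 2 ^ J → ∀ z : ℝ × ℝ,
          (shE s ⁻¹' E i).indicator (fun z => g (shE s z)) z ≠ 0 →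
          |z.1 - x'| ≤ (2 ^ i)⁻¹ → |z.2 - Y| ≤ 1 + A → False := by
        intro x' hx' z hz h1 h2
        have hzE : z ∈ shE s ⁻¹' E i := by
          by_contra hc
          exact hz (indicator_of_notMem hc _)
        refine hq i hJi hi (shE s z) hzE ?_ ?_
        · rw [shE_apply]
          have e : z.1 - x = (z.1 - x') + (x' - x) := by ring
          simp only
          rw [e]
          refine (abs_add_le _ _).trans ?_
          have e2 : (2 : ℝ) / 2 ^ J = 1 / 2 ^ J + 1 / 2 ^ J := by ring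
          rw [e2]
          linarith
        · rw [shE_apply]
          simp only
          have e : z.2 + s * z.1 - s * z.1 - Y = z.2 - Y := by ring
          rw [e]
          exact h2
      have e : x + t - x = t := by ring
      rw [S_quiet hp hb hA i (hT.vE hi) (x + t) Y (hqq (x + t) (by rw [e]; exact ht)),
        S_quiet hp hb hA i (hT.vE hi) x Y (hqq x (by simp))]
      simp
  refine (Finset.abs_sum_le_sum_abs _ _).trans ((Finset.sum_le_sum hterm).trans ?_)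
  rw [← Finset.mul_sum]
  have h3 := sum_two_pow_le n J
  have h4 : 0 ≤ 16 * C0 ^ 2 * (1 + A) ^ 2 * |t| := by positivity
  calc 16 * C0 ^ 2 * (1 + A) ^ 2 * |t| * ∑ i ∈ Finset.range n, (if i ≤ J then (2 : ℝ) ^ i else 0)
      ≤ 16 * C0 ^ 2 * (1 + A) ^ 2 * |t| * (2 * 2 ^ J) := by gcongr
    _ = _ := by ring

/-! ### The window and the profiles -/

/-- A window. -/
structure Win (ρ : ℝ → ℝ) (L : ℝ) : Prop where
  nonneg : ∀ v, 0 ≤ ρ v
  le_one : ∀ v, ρ v ≤ 1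
  one : ∀ v, |v| ≤ 1 → ρ v = 1
  supp : ∀ v, 2 ≤ |v| → ρ v = 0
  smooth : ContDiff ℝ 1 ρ
  lip : ∀ v w, |ρ v - ρ w| ≤ L * |v - w|
  L0 : 0 ≤ L

/-- The vertical profile of `G` at `z`. -/
def prof (ρ : ℝ → ℝ) (h : ℝ) (G : ℝ × ℝ → ℝ) (z : ℝ × ℝ) (v : ℝ) : ℝ :=
  ρ (v / h) * G (z.1, z.2 + v)

theorem prof_zero {ρ : ℝ → ℝ} {L : ℝ} (hρ : Win ρ L) {h : ℝ} (hh : 0 < h) (G : ℝ × ℝ → ℝ)
    (z : ℝ × ℝ) {v : ℝ} (hv : 2 * h ≤ |v|) : prof ρ h G z v = 0 := by
  unfold prof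
  rw [hρ.supp, zero_mul]
  rw [abs_div, abs_of_pos hh, le_div_iff₀ hh]
  exact hv

/-- Pointwise increment of the profile along the slope `σ`. -/
theorem prof_incr {ρ : ℝ → ℝ} {L : ℝ} (hρ : Win ρ L) {h : ℝ} (hh : 0 < h)
    (κ : Ker M) {C0 A : ℝ} (hκ : κ.Bd 1 C0) (hA : 0 ≤ A) {u : ℝ × ℝ → ℝ}
    (hu : Field u) {n : ℕ} {E : ℕ → Set (ℝ × ℝ)} (hE : ∀ j, MeasurableSet (E j)) {s : ℝ}
    (hs : ∀ j < n, ∀ z ∈ E j, |u z - s| ≤ A * 2 ^ j) {g : ℝ × ℝ → ℝ} (hg : Nice g)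
    (hg1 : ∀ z, |g z| ≤ 1) {J : ℕ} {z : ℝ × ℝ}
    (hq : ∀ j, J < j → j < n → ∀ z' ∈ E j, |z'.1 - z.1| ≤ 2 / 2 ^ J →
      |(z'.2 - s * z'.1) - (z.2 - s * z.1)| ≤ 3 * h + 1 + A → False)
    {t σ : ℝ} (ht : |t| ≤ 1 / 2 ^ J) (ha : |t * (s - σ)| ≤ h) (v : ℝ) :
    |prof ρ h (κ.FS u g E n) (z.1 + t, z.2 + t * σ) v -
      prof ρ h (κ.FS u g E n) z (v - t * (s - σ))| ≤
      {v : ℝ | |v| ≤ 2 * h}.indicator (fun _ => 32 * C0 ^ 2 * (1 + A) ^ 2 * (|t| * 2 ^ J)) v +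
      {w : ℝ | |w| ≤ 3 * h}.indicator (fun w => L * (|t * (s - σ)| / h) *
        |κ.FS u g E n (z.1, z.2 + w)|) (v - t * (s - σ)) := by
  set a := t * (s - σ) with ha_def
  set G := κ.FS u g E n with hG
  have hr1 : ∀ w, |w| ≤ 3 * h → |G (z.1 + t, z.2 + t * σ + (w + a)) - G (z.1, z.2 + w)| ≤
      32 * C0 ^ 2 * (1 + A) ^ 2 * (|t| * 2 ^ J) := by
    intro w hw
    have key := FS_incr κ hκ hA hu hE hs hg hg1 (J := J) (x := z.1)
      (Y := z.2 + w - s * z.1) (t := t) ?_ ht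
    · have e1 : z.2 + w - s * z.1 + s * (z.1 + t) = z.2 + t * σ + (w + a) := by
        rw [ha_def]; ring
      have e2 : z.2 + w - s * z.1 + s * z.1 = z.2 + w := by ring
      rw [e1, e2] at key
      exact key
    · intro j hJ hj z' hz' h1 h2
      refine hq j hJ hj z' hz' h1 ?_
      have e : (z'.2 - s * z'.1) - (z.2 - s * z.1) =
        (z'.2 - s * z'.1 - (z.2 + w - s * z.1)) + w := by ring
      rw [e]
      exact (abs_add_le _ _).trans (by linarith)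
  have hC : 0 ≤ 32 * C0 ^ 2 * (1 + A) ^ 2 * (|t| * 2 ^ J) := by positivity
  have hLa : 0 ≤ L * (|a| / h) := mul_nonneg hρ.L0 (by positivity)
  unfold prof
  have e0 : z.2 + t * σ + v = z.2 + t * σ + ((v - a) + a) := by ring
  simp only
  rw [e0]
  by_cases h3 : |v - a| ≤ 3 * h
  · have h4 := hr1 (v - a) h3
    have hind2 : {w : ℝ | |w| ≤ 3 * h}.indicator (fun w => L * (|a| / h) *
        |G (z.1, z.2 + w)|) (v - a) = L * (|a| / h) * |G (z.1, z.2 + (v - a))| :=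
      indicator_of_mem (by exact h3) _
    rw [hind2]
    have e1 : ρ (v / h) * G (z.1 + t, z.2 + t * σ + (v - a + a)) -
        ρ ((v - a) / h) * G (z.1, z.2 + (v - a)) =
        ρ (v / h) * (G (z.1 + t, z.2 + t * σ + (v - a + a)) - G (z.1, z.2 + (v - a))) +
        (ρ (v / h) - ρ ((v - a) / h)) * G (z.1, z.2 + (v - a)) := by ring
    rw [e1]
    refine (abs_add_le _ _).trans (add_le_add ?_ ?_)
    · rw [abs_mul, abs_of_nonneg (hρ.nonneg _)]
      by_cases h5 : |v| ≤ 2 * h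
      · rw [indicator_of_mem (by exact h5)]
        calc ρ (v / h) * |G (z.1 + t, z.2 + t * σ + (v - a + a)) - G (z.1, z.2 + (v - a))|
            ≤ 1 * (32 * C0 ^ 2 * (1 + A) ^ 2 * (|t| * 2 ^ J)) :=
              mul_le_mul (hρ.le_one _) h4 (abs_nonneg _) zero_le_one
          _ = _ := one_mul _
      · rw [indicator_of_notMem (by exact h5), hρ.supp, zero_mul]
        rw [abs_div, abs_of_pos hh, le_div_iff₀ hh]
        exact (not_le.1 h5).le
    · rw [abs_mul]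
      refine mul_le_mul_of_nonneg_right ?_ (abs_nonneg _)
      refine (hρ.lip _ _).trans (le_of_eq ?_)
      have e2 : v / h - (v - a) / h = a / h := by ring
      rw [e2, abs_div, abs_of_pos hh]
  · have h5 : 2 * h < |v| := by
      have h6 : |v - a| ≤ |v| + |a| := abs_sub _ _
      have h7 := not_le.1 h3
      linarith
    have h8 : 2 * h ≤ |v - a| := by linarith [not_le.1 h3]
    rw [hρ.supp (v / h) (by rw [abs_div, abs_of_pos hh, le_div_iff₀ hh]; exact h5.le),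
      hρ.supp ((v - a) / h) (by rw [abs_div, abs_of_pos hh, le_div_iff₀ hh]; exact h8)]
    rw [indicator_of_notMem (by exact not_le.2 h5), indicator_of_notMem (by exact h3)]
    simp

end

end Vale.Agent.P112.H864
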